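import Vale.Agent.P330.S.NumPT
import Vale.Agent.P330.H797.DynDefs

/-!
# The rows of all registers at all sites, by iterating the links

`tab NS R n` is the table, site by site, of the first `n` registers of `R : ℕ → ℕ → β` (register,
site). `addRow` appends one register at all sites; `PT.rows`: if register `nb + j` at the site `h`
is a polynomial time function of the older registers at the wired sites, then the table of all
registers is a polynomial time function. `exists_stacks`, `exists_start`: the same for a register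
system `Sys` whose sites and symbols are coded, and the blocks of the start word.
-/

set_option autoImplicit false

namespace Vale.Agent.P330.H659

open Vale.Agent.Lib.PolyTime

section Tab

variable {β : Type*}

/-- The table, site by site, of the first `n` registers. -/
def tab (NS : ℕ) (R : ℕ → ℕ → β) (n : ℕ) : List (List β) :=
  (List.range NS).map fun h => (List.range n).map fun j => R j h

theorem map_range_eq_ofFn (f : ℕ → β) (K : ℕ) :
    (List.range K).map f = List.ofFn fun i : Fin K => f i := by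
  rw [List.ofFn_eq_map, ← List.map_coe_finRange_eq_range, List.map_map]
  rfl

/-- One more register at all sites. -/
def addRow (NS K : ℕ) (wr : ℕ → ℕ → ℕ) (lk : ℕ → List (List β) → β) (T : List (List β)) :
    List (List β) :=
  (List.range NS).map fun h =>
    T.getD h [] ++ [lk h ((List.range K).map fun i => T.getD (wr i h) [])]

theorem getD_tab {NS : ℕ} (R : ℕ → ℕ → β) (n : ℕ) {h : ℕ} (hh : h < NS) :
    (tab NS R n).getD h [] = (List.range n).map fun j => R j h := by
  rw [tab, List.getD_eq_getElem _ _ (by simpa using hh)]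
  simp

theorem addRow_tab {NS K : ℕ} {wr : ℕ → ℕ → ℕ} {lk : ℕ → List (List β) → β} {R : ℕ → ℕ → β}
    {n : ℕ} (hwr : ∀ i < K, ∀ h < NS, wr i h < NS)
    (hlk : ∀ h < NS, lk h ((List.range K).map fun i => (List.range n).map fun j => R j (wr i h)) =
      R n h) :
    addRow NS K wr lk (tab NS R n) = tab NS R (n + 1) := by
  unfold addRow
  conv_rhs => unfold tab
  refine List.map_congr_left fun h hh => ?_
  have hh' := List.mem_range.1 hh
  rw [getD_tab R n hh', List.range_succ, List.map_append]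
  congr 1
  simp only [List.map_cons, List.map_nil, List.cons.injEq, and_true]
  rw [← hlk h hh']
  congr 1
  refine List.map_congr_left fun i hi => ?_
  exact getD_tab R n (hwr i (List.mem_range.1 hi) h hh')

end Tab

section PT

variable {A : Set Word} {α β : Type*} [Enc α] [Enc β]

theorem esize_tab_le {NS : ℕ} {R : ℕ → ℕ → β} {n B : ℕ}
    (hB : ∀ j < n, ∀ h < NS, esize (R j h) ≤ B) :
    esize (tab NS R n) ≤ NS * (2 * (n * (2 * B + 1)) + 1) := by
  have h1 : esize (tab NS R n) ≤ (tab NS R n).length * (2 * (n * (2 * B + 1)) + 1) := by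
    refine esize_list_le fun x hx => ?_
    obtain ⟨h, hh, rfl⟩ := List.mem_map.1 hx
    refine (esize_list_le (B := B) fun y hy => ?_).trans (by simp)
    obtain ⟨j, hj, rfl⟩ := List.mem_map.1 hy
    exact hB j (List.mem_range.1 hj) h (List.mem_range.1 hh)
  simpa [tab] using h1

/-- **The table of all registers in polynomial time**, from the table of the base registers. -/
theorem PT.rows {NS K nb L : α → ℕ} {wr : α → ℕ → ℕ → ℕ} {lk : α → ℕ → ℕ → List (List β) → β}
    {R : α → ℕ → ℕ → β} {b : α → ℕ} (hNS : PT A NS) (hNSb : PBd NS) (hK : PT A K) (hKb : PBd K)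
    (hnb : PBd nb) (hL : PT A L) (hLb : PBd L)
    (hwr : PT A (fun p : α × ℕ × ℕ => wr p.1 p.2.1 p.2.2))
    (hlk : PT A (fun p : α × ℕ × ℕ × List (List β) => lk p.1 p.2.1 p.2.2.1 p.2.2.2))
    (hR0 : PT A (fun a => tab (NS a) (R a) (nb a))) (hb : PBd b)
    (hsz : ∀ a, ∀ j < nb a + L a, ∀ h < NS a, esize (R a j h) ≤ b a)
    (hwlt : ∀ a, ∀ i < K a, ∀ h < NS a, wr a i h < NS a)
    (hstep : ∀ a, ∀ j < L a, ∀ h < NS a,
      lk a j h ((List.range (K a)).map fun i =>
        (List.range (nb a + j)).map fun j' => R a j' (wr a i h)) = R a (nb a + j) h) :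
    PT A (fun a => tab (NS a) (R a) (nb a + L a)) := by
  have key : ∀ a, ∀ j ≤ L a, Nat.rec (motive := fun _ => List (List β)) (tab (NS a) (R a) (nb a))
      (fun j T => addRow (NS a) (K a) (wr a) (lk a j) T) j = tab (NS a) (R a) (nb a + j) := by
    intro a j
    induction j with
    | zero => intro _; rfl
    | succ j ih =>
      intro hj
      have := ih (by omega)
      show addRow (NS a) (K a) (wr a) (lk a j) (Nat.rec _ _ j) = _
      rw [this]
      exact addRow_tab (fun i hi h hh => hwlt a i hi h hh) fun h hh => hstep a j (by omega) h hh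
  have hB : PBd (fun a => NS a * (2 * ((nb a + L a) * (2 * b a + 1)) + 1)) := by fun_prop
  have hs : PT A (fun p : α × ℕ × List (List β) =>
      addRow (NS p.1) (K p.1) (wr p.1) (lk p.1 p.2.1) p.2.2) := by
    unfold addRow
    refine PT.map (l := fun p : α × ℕ × List (List β) => List.range (NS p.1))
      (PT.range (hNS.comp PT.fst') (hNSb.comp (A := A) PT.fst')) ?_
    refine PT.append ?_ (PT.cons ?_ PT.nil)
    · exact PT.getD PT.fst'.snd.snd PT.snd' (PT.const [])
    · have hv : PT A (fun p : (α × ℕ × List (List β)) × ℕ =>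
          (List.range (K p.1.1)).map fun i => p.1.2.2.getD (wr p.1.1 i p.2) []) := by
        refine PT.map (l := fun p : (α × ℕ × List (List β)) × ℕ => List.range (K p.1.1))
          (PT.range (hK.comp PT.fst'.fst) (hKb.comp (A := A) PT.fst'.fst)) ?_
        refine PT.getD PT.fst'.fst.snd.snd ?_ (PT.const [])
        exact hwr.comp (f := fun q : ((α × ℕ × List (List β)) × ℕ) × ℕ => (q.1.1.1, q.2, q.1.2))
          (PT.fst'.fst.fst.pair (PT.snd'.pair PT.fst'.snd))
      have hc : PT A (fun p : (α × ℕ × List (List β)) × ℕ => (p.1.1, p.1.2.1, p.2,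
          (List.range (K p.1.1)).map fun i => p.1.2.2.getD (wr p.1.1 i p.2) [])) :=
        PT.fst'.fst.pair (PT.fst'.snd.fst.pair (PT.snd'.pair hv))
      exact hlk.comp hc
  refine (PT.natRec (init := fun a => tab (NS a) (R a) (nb a))
    (step := fun a j T => addRow (NS a) (K a) (wr a) (lk a j) T) hL hLb hR0 hs hB
    fun a j hj => ?_).congr fun a => key a _ le_rfl
  rw [key a j hj]
  refine (esize_tab_le (B := b a) fun j' hj' h hh => hsz a j' (by omega) h hh).trans ?_
  gcongr

end PT

/-! ### Register systems on numbers -/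

section Sys

open H797

variable {A : Set Word} {α β : Type} [Enc α] [Enc β]

/-- A family of register systems on numbers: sites are numbered, symbols are coded. -/
structure SysN (A : Set Word) {α : Type} [Enc α] (β : Type) [Enc β] {Om S X : α → Type} {K : ℕ}
    (Y : ∀ a, Sys (Om a) (S a) (X a) K) where
  /-- the number of sites -/
  NS : α → ℕ
  /-- the numbers of the sites -/
  e : ∀ a, Om a ≃ Fin (NS a)
  /-- the codes of the symbols -/
  cs : ∀ a, S a → β
  /-- the wires on numbers -/
  wrN : α → ℕ → ℕ → ℕ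
  wrN_eq : ∀ a (i : Fin K) (h : Om a), wrN a i (e a h) = e a ((Y a).wr i h)
  pt_NS : PT A NS
  pbd_NS : PBd NS
  pt_wrN : PT A (fun p : α × ℕ × ℕ => wrN p.1 p.2.1 p.2.2)
  pbd_nb : PBd (fun a => (Y a).nb)
  pt_L : PT A (fun a => (Y a).L)
  pbd_L : PBd (fun a => (Y a).L)
  pbd_cs : ∃ b : α → ℕ, PBd b ∧ ∀ a s, esize (cs a s) ≤ b a

namespace SysN

variable {Om S X : α → Type} {K : ℕ} {Y : ∀ a, Sys (Om a) (S a) (X a) K} (N : SysN A β Y)

/-- The coded stacks of the neighbours of `h`. -/
def nbs (a : α) (x : X a) (n : ℕ) (h : Om a) : List (List β) :=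
  List.ofFn fun i : Fin K => ((Y a).stk x n ((Y a).wr i h)).map (N.cs a)

/-- The link of register `nb + j` on numbers: correct on the true rows of the content `x`. -/
def LinkOk (lk : α → ℕ → ℕ → List (List β) → β) (x : ∀ a, X a) : Prop :=
  ∀ a, ∀ j < (Y a).L, ∀ h : Om a, lk a j (N.e a h) (N.nbs a (x a) ((Y a).nb + j) h) =
    N.cs a ((Y a).link j h fun i => (Y a).stk (x a) ((Y a).nb + j) ((Y a).wr i h))

/-- The coded row of register `j` at the site number `h`. -/
def rowN (x : ∀ a, X a) (a : α) (j h : ℕ) : β :=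
  if hh : h < N.NS a then N.cs a ((Y a).row (x a) j ((N.e a).symm ⟨h, hh⟩)) else N.cs a (Y a).s0

theorem rowN_e (x : ∀ a, X a) (a : α) (j : ℕ) (h : Om a) :
    N.rowN x a j (N.e a h) = N.cs a ((Y a).row (x a) j h) := by
  unfold rowN
  rw [dif_pos (N.e a h).isLt]
  simp

theorem map_rowN (x : ∀ a, X a) (a : α) (n : ℕ) (h : Om a) :
    ((List.range n).map fun j => N.rowN x a j (N.e a h)) = ((Y a).stk (x a) n h).map (N.cs a) := by
  rw [Sys.stk, List.map_map]
  exact List.map_congr_left fun j _ => N.rowN_e x a j h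

/-- The table of the first `n` registers of the content `x`. -/
def tabN (x : ∀ a, X a) (a : α) (n : ℕ) : List (List β) := tab (N.NS a) (N.rowN x a) n

theorem getD_tabN (x : ∀ a, X a) (a : α) (n : ℕ) (h : Om a) :
    (N.tabN x a n).getD (N.e a h) [] = ((Y a).stk (x a) n h).map (N.cs a) := by
  rw [tabN, getD_tab _ _ (N.e a h).isLt, N.map_rowN]

/-- **All rows in polynomial time**, from the base rows; `m a ≤ L` further registers. -/
theorem pt_tabN {x : ∀ a, X a} {lk : α → ℕ → ℕ → List (List β) → β}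
    (hlk : PT A (fun p : α × ℕ × ℕ × List (List β) => lk p.1 p.2.1 p.2.2.1 p.2.2.2))
    (hok : N.LinkOk lk x)
    (hlink : ∀ a j (h : Om a), j < (Y a).L → (Y a).row (x a) ((Y a).nb + j) h =
      (Y a).link j h (fun i => (Y a).stk (x a) ((Y a).nb + j) ((Y a).wr i h)))
    (h0 : PT A (fun a => N.tabN x a (Y a).nb)) {m : α → ℕ} (hm : PT A m)
    (hmL : ∀ a, m a ≤ (Y a).L) :
    PT A (fun a => N.tabN x a ((Y a).nb + m a)) := by
  obtain ⟨b, hb, hb'⟩ := N.pbd_cs
  refine PT.rows (K := fun _ => K) (lk := lk) N.pt_NS N.pbd_NS (PT.const K) (PBd.const K) N.pbd_nb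
    hm (N.pbd_L.mono hmL) N.pt_wrN hlk h0 hb ?_ ?_ ?_
  · intro a j _ h _
    unfold rowN
    split
    · exact hb' _ _
    · exact hb' _ _
  · intro a i hi h hh
    have := N.wrN_eq a ⟨i, hi⟩ ((N.e a).symm ⟨h, hh⟩)
    simp only [Equiv.apply_symm_apply] at this
    rw [this]
    exact Fin.isLt _
  · intro a j hj h hh
    obtain ⟨h', rfl⟩ : ∃ h' : Om a, h = N.e a h' := ⟨(N.e a).symm ⟨h, hh⟩, by simp⟩
    have hj' : j < (Y a).L := hj.trans_le (hmL a)
    rw [N.rowN_e, hlink a j h' hj', ← hok a j hj' h']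
    congr 1
    rw [nbs, map_range_eq_ofFn]
    congr 1
    funext i
    rw [N.wrN_eq, N.map_rowN]

/-- The base rows of the predecessor (or successor) of a content, from its full stacks. -/
theorem pt_nxt {x : ∀ a, X a} {z : Bool} {nx : α → ℕ → List (List β) → List β}
    (hnx : PT A (fun p : α × ℕ × List (List β) => nx p.1 p.2.1 p.2.2))
    (hok : ∀ a (h : Om a), nx a (N.e a h) (N.nbs a (x a) ((Y a).nb + (Y a).L) h) =
      ((Y a).nxt z h fun i => (Y a).stk (x a) ((Y a).nb + (Y a).L) ((Y a).wr i h)).map (N.cs a))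
    (hnxt : ∀ a (h : Om a), (Y a).nxt z h
      (fun i => (Y a).stk (x a) ((Y a).nb + (Y a).L) ((Y a).wr i h)) =
        (Y a).stk ((Y a).D.step z (x a)) (Y a).nb h)
    (h0 : PT A (fun a => N.tabN x a ((Y a).nb + (Y a).L))) :
    PT A (fun a => N.tabN (fun a => (Y a).D.step z (x a)) a (Y a).nb) := by
  have h1 : PT A (fun a => (List.range (N.NS a)).map fun h => nx a h ((List.range K).map fun i =>
      (N.tabN x a ((Y a).nb + (Y a).L)).getD (N.wrN a i h) [])) := by
    refine PT.map (PT.range N.pt_NS N.pbd_NS) ?_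
    refine (hnx.comp (PT.fst'.pair (PT.snd'.pair ?_)) :)
    refine PT.map (l := fun _ : α × ℕ => List.range K) (PT.const _) ?_
    exact PT.getD (h0.comp PT.fst'.fst)
      (N.pt_wrN.comp (PT.fst'.fst.pair (PT.snd'.pair PT.fst'.snd))) (PT.const [])
  refine h1.congr fun a => ?_
  conv_rhs => rw [tabN, tab]
  refine List.map_congr_left fun h hh => ?_
  obtain ⟨h', rfl⟩ : ∃ h' : Om a, h = N.e a h' :=
    ⟨(N.e a).symm ⟨h, List.mem_range.1 hh⟩, by simp⟩
  rw [N.map_rowN, ← hnxt a h', ← hok a h', nbs, map_range_eq_ofFn]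
  congr 2
  funext i
  rw [N.wrN_eq, N.getD_tabN]

/-- A block with coded symbols. -/
def blkN (a : α) (b : Blk (S a)) : Bool × List β × List β :=
  (b.rel, (b.st false).map (N.cs a), (b.st true).map (N.cs a))

/-- **The blocks of the start word in polynomial time.** -/
theorem exists_start {c : Cst} [∀ a, Fintype (Om a)] (hR : ∀ a, RFacts (Y a) c)
    {lk : α → ℕ → ℕ → List (List β) → β}
    (hlk : PT A (fun p : α × ℕ × ℕ × List (List β) => lk p.1 p.2.1 p.2.2.1 p.2.2.2))
    (hok0 : N.LinkOk lk fun a => (Y a).D.w0)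
    (hok1 : N.LinkOk lk fun a => (Y a).D.step true (Y a).D.w0)
    {nx : α → ℕ → List (List β) → List β}
    (hnx : PT A (fun p : α × ℕ × List (List β) => nx p.1 p.2.1 p.2.2))
    (hnxok : ∀ a (h : Om a), nx a (N.e a h) (N.nbs a (Y a).D.w0 ((Y a).nb + (Y a).L) h) =
      ((Y a).nxt true h fun i =>
        (Y a).stk (Y a).D.w0 ((Y a).nb + (Y a).L) ((Y a).wr i h)).map (N.cs a))
    (h0 : PT A (fun a => N.tabN (fun a => (Y a).D.w0) a (Y a).nb)) :
    ∃ st : α → ℕ → Bool × List β × List β, PT A (fun p : α × ℕ => st p.1 p.2) ∧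
      ∀ a (h : Om a), st a (N.e a h) = N.blkN a ((Y a).bsys.word (Y a).bsys.w0 h) := by
  have t0 : PT A (fun a => N.tabN (fun a => (Y a).D.w0) a ((Y a).nb + (Y a).L)) :=
    N.pt_tabN hlk hok0 (fun a j h hj => (hR a).link_row _ j h hj) h0 N.pt_L fun a => le_rfl
  have b1 : PT A (fun a => N.tabN (fun a => (Y a).D.step true (Y a).D.w0) a (Y a).nb) :=
    N.pt_nxt (x := fun a => (Y a).D.w0) hnx hnxok
      (fun a h => (hR a).nxt_row true _ (Y a).D.valid0 h) t0
  have t1 : PT A (fun a => N.tabN (fun a => (Y a).D.step true (Y a).D.w0) a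
      ((Y a).nb + ((Y a).L - 1))) :=
    N.pt_tabN hlk hok1 (fun a j h hj => (hR a).link_row _ j h hj) b1
      (PT.sub N.pt_L (PT.const 1)) fun a => Nat.sub_le _ _
  refine ⟨fun a h => (true,
    (N.tabN (fun a => (Y a).D.step true (Y a).D.w0) a ((Y a).nb + ((Y a).L - 1))).getD h [],
    (N.tabN (fun a => (Y a).D.w0) a ((Y a).nb + (Y a).L)).getD h []), ?_, fun a h => ?_⟩
  · exact (PT.const true).pair ((PT.getD (t1.comp PT.fst') PT.snd' (PT.const [])).pair
      (PT.getD (t0.comp PT.fst') PT.snd' (PT.const [])))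
  · simp only [N.getD_tabN]
    rfl

end SysN

end Sys

end Vale.Agent.P330.H659
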