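import Vale.Agent.P330.W.H912.Main
import Vale.Agent.P330.W.H659.Rows

/-!
# The start blocks, from the site programs

`exists_st`: if the programs `P` describe the register systems `Y a` (for the good `a`) and the base
rows of the start content are computable, then the start blocks are computable.
-/

set_option autoImplicit false

namespace Vale.Agent.P330.H659

open Vale.Agent.Lib.PolyTime H797
open W.H912 (Prg Rep SCode LB toLB)

/-- Case distinction over finitely many numbers. -/
theorem PT_fin {A : Set Word} {β γ : Type*} [Enc β] [Enc γ] (n : ℕ) {f : Fin n → β → γ} {d : β → γ}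
    (h : ∀ i, PT A (f i)) (hd : PT A d) {c : β → ℕ} (hc : PT A c) :
    PT A (fun b => if h : c b < n then f ⟨c b, h⟩ b else d b) := by
  induction n with
  | zero => exact hd.congr fun b => by simp
  | succ n ih =>
    have h1 := ih (f := fun i => f i.castSucc) fun i => h _
    refine (PT.ite (p := fun b => c b = n) (PT.eqNat hc (PT.const n)) (h (Fin.last n)) h1).congr
      fun b => ?_
    by_cases h2 : c b = n
    · rw [if_pos h2, dif_pos (by omega)]
      congr 1
      exact Fin.ext h2.symm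
    · rw [if_neg h2]
      by_cases h3 : c b < n
      · rw [dif_pos h3, dif_pos (by omega)]
        rfl
      · rw [dif_neg h3, dif_neg (by omega)]

variable {A : Set Word} {α π T : Type} [Enc α] [Enc π] [Enc T] {K : ℕ} {Om S X : α → Type}

/-- **The start blocks in polynomial time.** -/
theorem exists_st {Y : ∀ a, Sys (Om a) (S a) (X a) K} {P : Prg π T} (hP : P.PTs A)
    {sl : α → ℕ} {c : ∀ a, SCode (S a) (sl a)} {rp : ∀ a, S a → T} {pubA : ∀ a, Om a → π}
    {good : α → Prop} [DecidablePred good] (hgood : PT A (fun a => decide (good a)))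
    (rep : ∀ a, good a → Rep P (Y a) (c a) (pubA a) (rp a))
    {pubT : α × ℕ → π} (hpub : PT A pubT) {NS : α → ℕ} (num : ∀ a, Om a ≃ Fin (NS a))
    (hNS : PT A NS) (hNSb : PBd NS) (hpubT : ∀ a h, pubT (a, (num a h : ℕ)) = pubA a h)
    {wrN : Fin K → α × ℕ → ℕ} (hwr : ∀ i, PT A (wrN i))
    (hwrN : ∀ i a h, wrN i (a, (num a h : ℕ)) = num a ((Y a).wr i h))
    (hL : PT A (fun a => (Y a).L)) (hLb : PBd (fun a => (Y a).L))
    (hnb : PBd (fun a => (Y a).nb)) (hrp : ∃ b : α → ℕ, PBd b ∧ ∀ a s, esize (rp a s) ≤ b a)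
    {cst : Cst} [∀ a, Fintype (Om a)] (hR : ∀ a, good a → RFacts (Y a) cst)
    {bs : α × ℕ → List T} (hbs : PT A bs)
    (hbs' : ∀ a, good a → ∀ h, bs (a, (num a h : ℕ)) =
      ((Y a).stk (Y a).D.w0 (Y a).nb h).map (rp a)) :
    ∃ st : α × ℕ → LB T, PT A st ∧ ∀ a, good a → ∀ h, st (a, (num a h : ℕ)) =
      toLB (rp a) ((Y a).bsys.word (Y a).bsys.w0 h) := by
  by_cases hex : ∃ a0, good a0
  swap
  · exact ⟨fun _ => (false, [], []), PT.const _, fun a ha => absurd ⟨a, ha⟩ hex⟩
  obtain ⟨a0, ha0⟩ := hex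
  let u : α → α := fun a => if good a then a else a0
  have hu : PT A u := PT.ite hgood PT.id (PT.const a0)
  have hug : ∀ a, good (u a) := by
    intro a
    show good (if good a then a else a0)
    split_ifs with h
    · exact h
    · exact ha0
  have huu : ∀ a, good a → u a = a := fun a ha => if_pos ha
  obtain ⟨b, hb, hb'⟩ := hrp
  let N : SysN A T (fun a => Y (u a)) :=
    { NS := fun a => NS (u a)
      e := fun a => num (u a)
      cs := fun a => rp (u a)
      wrN := fun a i h => if hi : i < K then wrN ⟨i, hi⟩ (u a, h) else 0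
      wrN_eq := fun a i h => by rw [dif_pos i.2]; exact hwrN i (u a) h
      pt_NS := hNS.comp hu
      pbd_NS := PBd.comp (b := NS) hNSb hu
      pt_wrN := PT_fin K (f := fun i (p : α × ℕ × ℕ) => wrN i (u p.1, p.2.2))
        (d := fun _ => 0) (fun i => (hwr i).comp ((hu.comp PT.fst').pair PT.snd'.snd))
        (PT.const 0) PT.snd'.fst
      pbd_nb := PBd.comp (b := fun a => (Y a).nb) hnb hu
      pt_L := PT.comp (g := fun a => (Y a).L) hL hu
      pbd_L := PBd.comp (b := fun a => (Y a).L) hLb hu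
      pbd_cs := ⟨fun a => b (u a), PBd.comp (b := b) hb hu, fun a s => hb' _ s⟩ }
  have hnbs : ∀ (a : α) (x : X (u a)) (n : ℕ) (h : Om (u a)), N.nbs a x n h =
      List.ofFn fun i => ((Y (u a)).stk x n ((Y (u a)).wr i h)).map (rp (u a)) :=
    fun _ _ _ _ => rfl
  have hlen : ∀ (a : α) (x : X (u a)) (n : ℕ) (h : Om (u a)), ((Y (u a)).stk x n h).length = n :=
    fun a x n h => by simp [Sys.stk]
  have hlk : PT A (fun p : α × ℕ × ℕ × List (List T) =>
      P.link (pubT (u p.1, p.2.2.1)) p.2.1 p.2.2.2) :=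
    PT.comp (g := fun q : π × ℕ × List (List T) => P.link q.1 q.2.1 q.2.2) hP.link
      ((hpub.comp ((hu.comp PT.fst').pair PT.snd'.snd.fst)).pair
        (PT.snd'.fst.pair PT.snd'.snd.snd))
  have hok : ∀ x : ∀ a, X (u a), N.LinkOk (fun a j h v => P.link (pubT (u a, h)) j v) x := by
    intro x a j hj h
    show P.link (pubT (u a, (num (u a) h : ℕ))) j (N.nbs a (x a) _ h) = _
    rw [hpubT, hnbs, (rep _ (hug a)).link h j hj _ fun i => hlen _ _ _ _]
  have hnx : PT A (fun p : α × ℕ × List (List T) => P.nxt (pubT (u p.1, p.2.1)) true p.2.2) :=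
    PT.comp (g := fun q : π × Bool × List (List T) => P.nxt q.1 q.2.1 q.2.2) hP.nxt
      ((hpub.comp ((hu.comp PT.fst').pair PT.snd'.fst)).pair ((PT.const true).pair PT.snd'.snd))
  have hnxok : ∀ a (h : Om (u a)), P.nxt (pubT (u a, (N.e a h : ℕ))) true
      (N.nbs a (Y (u a)).D.w0 ((Y (u a)).nb + (Y (u a)).L) h) =
      ((Y (u a)).nxt true h fun i => (Y (u a)).stk (Y (u a)).D.w0
        ((Y (u a)).nb + (Y (u a)).L) ((Y (u a)).wr i h)).map (N.cs a) := by
    intro a h
    show P.nxt (pubT (u a, (num (u a) h : ℕ))) true _ = _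
    rw [hpubT, hnbs, (rep _ (hug a)).nxt h true _ fun i => hlen _ _ _ _]
  have h0 : PT A (fun a => N.tabN (fun a => (Y (u a)).D.w0) a (Y (u a)).nb) := by
    have h1 : PT A (fun a => (List.range (N.NS a)).map fun h => bs (u a, h)) :=
      PT.map (f := fun a h => bs (u a, h)) (PT.range N.pt_NS N.pbd_NS)
        (hbs.comp ((hu.comp PT.fst').pair PT.snd'))
    refine h1.congr fun a => ?_
    rw [SysN.tabN, tab]
    refine List.map_congr_left fun h hh => ?_
    obtain ⟨h', rfl⟩ : ∃ h' : Om (u a), h = num (u a) h' :=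
      ⟨(num (u a)).symm ⟨h, List.mem_range.1 hh⟩, by simp⟩
    rw [hbs' _ (hug a)]
    exact (N.map_rowN (fun a => (Y (u a)).D.w0) a (Y (u a)).nb h').symm
  obtain ⟨st, hst, hst'⟩ := N.exists_start (lk := fun a j h v => P.link (pubT (u a, h)) j v)
    (nx := fun a h v => P.nxt (pubT (u a, h)) true v) (fun a => hR _ (hug a)) hlk (hok _) (hok _)
    hnx hnxok h0
  refine ⟨fun p => st p.1 p.2, hst, fun a ha => ?_⟩
  have h2 : ∀ h : Om (u a), st a (num (u a) h : ℕ) =
      toLB (rp (u a)) ((Y (u a)).bsys.word (Y (u a)).bsys.w0 h) := fun h => hst' a h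
  rw [huu a ha] at h2
  exact h2

end Vale.Agent.P330.H659
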