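import Vale.Agent.P330.H933.Etab
import Vale.Agent.P330.H985.Sym
import Vale.Agent.P330.W.H840.OfRS
import Vale.Agent.P330.W.H659.StartP

/-!
# The base rows of a content

`EPT`: the words `E w` of contents in polynomial time are in polynomial time. `baseL`: the coded
base rows of a tuple of contents at a site, in polynomial time.
-/

set_option autoImplicit false

namespace Vale.Agent.P330.H659

open Vale.Agent.Lib.PolyTime Vale.Agent.P330.H933 Vale.Agent.P330.H604 Vale.Agent.P330.H985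
open Vale.Agent.P330.H155 (Cd RS conv)

variable {A : Set Word} {α : Type} [Enc α] {l L : α → ℕ} {J : α → Type}
  [∀ a, AddCommGroup (J a)] [∀ a, DistribMulAction (SL3 (l a)) (J a)] [∀ a, Fintype (J a)]
  {N : JNum A l J} {D : ℕ}

/-- The words `E w` are computable in polynomial time if the contents `w` are. -/
def EPT (N : JNum A l J) (L : α → ℕ)
    (S : ∀ a, Cd (J a) (SL3 (l a)) (Fin D) (Fl (L a))) : Prop :=
  ∀ {β : Type} [Enc β] {u : β → α}, PT A u → ∀ {w : ∀ b, J (u b) → Fl (L (u b))},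
    CT N L u w → ∀ {h : ∀ b, J (u b) × SL3 (l (u b))}, N.ST u h → ∀ c : Fin D,
      FT A (fun b => L (u b)) (fun b => (S (u b)).E (w b) (h b) c)

omit [∀ a, Fintype (J a)] in
/-- Contents in a larger context. -/
theorem CT.comp {β γ : Type} [Enc β] [Enc γ] {u : β → α} {w : ∀ b, J (u b) → Fl (L (u b))}
    (hw : CT N L u w) {v : γ → β} (hv : PT A v) :
    CT N L (fun c => u (v c)) (fun c => w (v c)) := by
  have h0 : PT A (fun p : β × ℕ => cod (L (u p.1))
    (w p.1 (N.val (u p.1) (p.2 % 2 ^ N.κ (u p.1))))) := hw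
  exact PT.comp (f := fun q : γ × ℕ => (v q.1, q.2)) h0 ((hv.comp PT.fst').pair PT.snd')

variable {S : ∀ a, Cd (J a) (SL3 (l a)) (Fin D) (Fl (L a))}

omit [∀ a, Fintype (J a)] in
/-- The entry with a computed label. -/
theorem EPT.lab (hE : EPT N L S) {β : Type} [Enc β] {u : β → α} (hu : PT A u)
    {w : ∀ b, J (u b) → Fl (L (u b))} (hw : CT N L u w) {h : ∀ b, J (u b) × SL3 (l (u b))}
    (hh : N.ST u h) {c : β → ℕ} (hc : PT A c) :
    FT A (fun b => L (u b)) (fun b =>
      if hc : c b < D then (S (u b)).E (w b) (h b) ⟨c b, hc⟩ else 0) := by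
  have h1 : PT A (fun b => if hc : c b < D then
      (fun (i : Fin D) (b : β) => cod (L (u b)) ((S (u b)).E (w b) (h b) i)) ⟨c b, hc⟩ b
      else cod (L (u b)) (0 : Fl (L (u b)))) :=
    PT_fin D (fun i => hE hu hw hh i) (FT.zero (l := fun b => L (u b))) hc
  refine h1.congr fun b => ?_
  beta_reduce
  by_cases hb : c b < D
  · rw [dif_pos hb, dif_pos hb]
  · rw [dif_neg hb, dif_neg hb]

/-- The words of the outer code are computable in polynomial time. -/
theorem ept_cdOf {bet : ∀ a, Fin D → J a} {η : ∀ a, Fin D → SL3 (l a)} {eps : ∀ a, Fl (L a)}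
    {b0 : Fin D} {P0 P1 : Submodule (ZMod 2) (Fin D → ZMod 2)} {B1 B2 : Finset (Fin D)}
    (hl : GPar A l) (hL : LPar A L) (hbet : ∀ b, N.JT (fun a : α => a) fun a => bet a b)
    (hη : ∀ b, GT A l fun a => η a b) (heps : FT A L eps)
    (hi1 : W.H972.IsInfo P0 B1) (hc1 : B1.card = Module.finrank (ZMod 2) P0)
    (hi2 : W.H972.IsInfo P1 B2) (hc2 : B2.card = Module.finrank (ZMod 2) P1)
    (hd : Disjoint B1 B2)
    (hS : ∀ a, (W.H624.cdOf (bet a) (η a) P0 P1 B1 B2 (eps a) b0).Good) :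
    EPT N L fun a => W.H624.cdOf (bet a) (η a) P0 P1 B1 B2 (eps a) b0 := by
  intro β _ u hu w hw h hh c
  have : Nonempty (Fin D) := ⟨b0⟩
  exact FT_E hl hL hbet hη heps hi1 hc1 hi2 hc2 hd hu (fun b => hS _) hw hh c

/-- The content of the register `k` of the bundle of `u`. -/
noncomputable def bct {l' L' : ℕ} {J' : Type} [AddCommGroup J'] [DistribMulAction (SL3 l') J']
    (S : Cd J' (SL3 l') (Fin D) (Fl L')) (u : J' → Fl L') (k : ℕ) : J' → Fl L' := fun y =>
  if hc : k % D < D then S.E u (ge l' (k / D) • y, ge l' (k / D)) ⟨k % D, hc⟩ else 0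

omit [∀ a, Fintype (J a)] in
theorem CT_bct (hl : GPar A l) (hE : EPT N L S) {β : Type} [Enc β] {u : β → α} (hu : PT A u)
    {w : ∀ b, J (u b) → Fl (L (u b))} (hw : CT N L u w) {k : β → ℕ} (hk : PT A k) :
    CT N L u (fun b => bct (S (u b)) (w b) (k b)) := by
  refine CT.of hu fun {γ} _ v x hv hx => ?_
  have hg : GT A (fun c => l (u (v c))) (fun c => ge (l (u (v c))) (k (v c) / D)) :=
    GT.ofNum (hl.comp (hu.comp hv)) (PT.div (hk.comp hv) (PT.const D))
  exact EPT.lab hE (u := fun c => u (v c)) (hu.comp hv) (w := fun c => w (v c)) (CT.comp hw hv)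
    (JNum.ST.mk (hu.comp hv) (JNum.JT.smul (hu.comp hv) hg hx) hg)
    (PT.mod (hk.comp hv) (PT.const D))

/-- The coded base rows of the contents `x 0, …, x (n - 1)` at a site. -/
noncomputable def baseL {l' L' : ℕ} {J' : Type} [AddCommGroup J'] [DistribMulAction (SL3 l') J']
    (S : Cd J' (SL3 l') (Fin D) (Fl L')) (n q : ℕ) (x : ℕ → J' → Fl L') (h : J' × SL3 l') :
    List (List Bool) :=
  (List.range (n * q)).map fun j => cS L' (S.E (bct S (x (j / q)) (j % q)) h)

omit [∀ a, Fintype (J a)] in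
/-- **The base rows in polynomial time.** -/
theorem PT.baseL (hl : GPar A l) (hL : LPar A L) (hE : EPT N L S) {n q : α → ℕ} (hn : PT A n)
    (hnb : PBd n) (hq : PT A q) (hqb : PBd q) {x : ∀ a, ℕ → J a → Fl (L a)}
    (hx : CT N L (fun p : α × ℕ => p.1) (fun p => x p.1 p.2)) :
    PT A (fun p : α × ℕ => baseL (S p.1) (n p.1) (q p.1) (x p.1) (N.sv p.1 p.2)) := by
  refine PT.map (f := fun (p : α × ℕ) j => cS (L p.1)
    ((S p.1).E (bct (S p.1) (x p.1 (j / q p.1)) (j % q p.1)) (N.sv p.1 p.2)))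
    (PT.range (PT.mul (hn.comp PT.fst') (hq.comp PT.fst'))
      (PBd.comp (b := fun a => n a * q a) (hnb.mul hqb) (PT.fst' (A := A)))) ?_
  refine PT.cS (l := fun p : (α × ℕ) × ℕ => L p.1.1) (hL.comp PT.fst'.fst) fun c => ?_
  have hq' : PT A (fun p : (α × ℕ) × ℕ => q p.1.1) := hq.comp PT.fst'.fst
  refine hE (u := fun p : (α × ℕ) × ℕ => p.1.1) PT.fst'.fst ?_ ?_ c
  · exact CT_bct hl hE (u := fun p : (α × ℕ) × ℕ => p.1.1) PT.fst'.fst
      (w := fun p => x p.1.1 (p.2 / q p.1.1))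
      (CT.comp (v := fun p : (α × ℕ) × ℕ => (p.1.1, p.2 / q p.1.1)) hx
        (PT.fst'.fst.pair (PT.div PT.snd' hq'))) (PT.mod PT.snd' hq')
  · exact JNum.ST.ofNum (u := fun p : (α × ℕ) × ℕ => p.1.1) hl PT.fst'.fst PT.fst'.snd

/-! ### The register systems -/

section RS

variable {l' L' n : ℕ} {J' iJ iG : Type} [AddCommGroup J'] [Fintype J']
  [DistribMulAction (SL3 l') J'] {R : RS J' (SL3 l') (Fin D) (Fl L') iJ iG n}

theorem bct_eq (hS : R.S.Good) (hq : R.q = cG l' * D)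
    (hen : ∀ (v : SL3 l') (b : Fin D), (R.en.symm (v, b) : ℕ) = gE l' v * D + b)
    (u : J' → Fl L') {k : ℕ} (hk : k < R.q) : bct R.S u k = R.bcnt u k := by
  have hD : 0 < D := by
    rcases Nat.eq_zero_or_pos D with h | h
    · rw [hq, h, Nat.mul_zero] at hk; omega
    · exact h
  have h1 : R.enN k = (ge l' (k / D), ⟨k % D, Nat.mod_lt _ hD⟩) := by
    unfold RS.enN
    rw [dif_pos hk, ← Equiv.eq_symm_apply]
    refine Fin.ext ?_
    rw [hen]
    have h2 : k / D < cG l' := Nat.div_lt_of_lt_mul (by rw [Nat.mul_comm]; rwa [hq] at hk)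
    show k = gn l' (ge l' (k / D)) * D + k % D
    rw [gn_ge h2, Nat.mul_comm]
    exact (Nat.div_add_mod k D).symm
  funext y
  unfold bct RS.bcnt
  rw [dif_pos (Nat.mod_lt _ hD), h1, H155.Cd.E_eq_conv hS]

/-- The base rows of a tuple of contents. -/
theorem baseL_eq (hS : R.S.Good) (hq : R.q = cG l' * D)
    (hen : ∀ (v : SL3 l') (b : Fin D), (R.en.symm (v, b) : ℕ) = gE l' v * D + b)
    {x : Fin n → J' → Fl L'} {xN : ℕ → J' → Fl L'} (hx : ∀ i : Fin n, xN i = x i)
    (h : J' × SL3 l') :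
    baseL R.S n R.q xN h = (List.range R.nb).map fun j => cS L' (R.row x j h) := by
  unfold baseL
  refine List.map_congr_left fun j hj => ?_
  have hj' : j < R.nb := List.mem_range.1 hj
  have hq0 : 0 < R.q := by
    rcases Nat.eq_zero_or_pos R.q with h0 | h0
    · unfold RS.nb at hj'; rw [h0] at hj'; omega
    · exact h0
  have h1 : j / R.q < n := by rw [Nat.div_lt_iff_lt_mul hq0]; exact hj'
  unfold RS.row RS.cnt
  rw [if_pos hj', dif_pos h1, bct_eq hS hq hen _ (Nat.mod_lt _ hq0), ← hx ⟨_, h1⟩]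

variable {K : ℕ} {W : H840.Wires R.S R.g.gG R.g.sJ K}
  {DL DR : (Fin D → Option (Fl L')) → Fin D → Fl L'}
  {vchk : J' × SL3 l' → (ℕ → Fin D → Fl L') → Prop}
  {nxt : Bool → J' × SL3 l' → (ℕ → Fin D → Fl L') → List (Fin D → Fl L')}
  {Dn : Q.Dyn (Fin n → J' → Fl L')}

/-- The stack of the base rows. -/
theorem baseL_stk (hS : R.S.Good) (hq : R.q = cG l' * D)
    (hen : ∀ (v : SL3 l') (b : Fin D), (R.en.symm (v, b) : ℕ) = gE l' v * D + b)
    {x : Fin n → J' → Fl L'} {xN : ℕ → J' → Fl L'} (hx : ∀ i : Fin n, xN i = x i)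
    (h : J' × SL3 l') :
    baseL R.S n R.q xN h = ((H840.datOf R W DL DR vchk nxt Dn).sys.stk x
      (H840.datOf R W DL DR vchk nxt Dn).sys.nb h).map (cS L') := by
  have h1 : (H840.datOf R W DL DR vchk nxt Dn).sys.stk x
      (H840.datOf R W DL DR vchk nxt Dn).sys.nb h =
      (List.range R.nb).map fun j => (H840.datOf R W DL DR vchk nxt Dn).row x j h := rfl
  rw [baseL_eq hS hq hen hx, h1, List.map_map]
  refine List.map_congr_left fun j _ => ?_
  exact (congrArg (cS L') (H840.datOf_row (W := W) (DL := DL) (DR := DR) (vchk := vchk)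
    (nxt := nxt) (D := Dn) hS x j h)).symm

end RS

end Vale.Agent.P330.H659
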