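import Vale.Agent.P330.S.NumPT
import Vale.Agent.P330.H838.QL

/-!
# Sizes

`SB s f`: `f i ≤ k * s i ^ k` for a constant `k`. For `s = lg` this is `QLog`. The size of the value
of a function in polynomial time is polynomial in the size of the argument (`SB.of_pt`); sizes of
pairs and lists.
-/

set_option autoImplicit false

namespace Vale.Agent.P330.H659

open Vale.Agent.Lib.PolyTime

section SB

variable {ι ι' : Type*} {s f g : ι → ℕ}

/-- `f` is polynomially bounded in `s`. -/
def SB (s f : ι → ℕ) : Prop := ∃ k : ℕ, ∀ i, f i ≤ k * s i ^ k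

theorem SB.mono (hf : SB s f) (h : ∀ i, g i ≤ f i) : SB s g := by
  obtain ⟨k, hk⟩ := hf
  exact ⟨k, fun i => (h i).trans (hk i)⟩

theorem SB.comp (hf : SB s f) (u : ι' → ι) : SB (fun i => s (u i)) (fun i => f (u i)) := by
  obtain ⟨k, hk⟩ := hf
  exact ⟨k, fun i => hk (u i)⟩

theorem SB.const (hs : ∀ i, 1 ≤ s i) (c : ℕ) : SB s fun _ => c := ⟨c, fun i =>
  Nat.le_mul_of_pos_right _ (Nat.pow_pos (hs i))⟩

theorem SB.self : SB s s := ⟨1, fun i => by rw [pow_one, one_mul]⟩

theorem SB.add (hs : ∀ i, 1 ≤ s i) (hf : SB s f) (hg : SB s g) : SB s fun i => f i + g i := by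
  obtain ⟨k, hk⟩ := hf
  obtain ⟨l, hl⟩ := hg
  refine ⟨k + l, fun i => ?_⟩
  calc f i + g i ≤ k * s i ^ k + l * s i ^ l := add_le_add (hk i) (hl i)
    _ ≤ k * s i ^ (k + l) + l * s i ^ (k + l) :=
        add_le_add (Nat.mul_le_mul_left _ (Nat.pow_le_pow_right (hs i) (Nat.le_add_right _ _)))
          (Nat.mul_le_mul_left _ (Nat.pow_le_pow_right (hs i) (Nat.le_add_left _ _)))
    _ = _ := by ring

theorem SB.mul (hs : ∀ i, 1 ≤ s i) (hf : SB s f) (hg : SB s g) : SB s fun i => f i * g i := by
  obtain ⟨k, hk⟩ := hf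
  obtain ⟨l, hl⟩ := hg
  refine ⟨k * l + (k + l), fun i => ?_⟩
  calc f i * g i ≤ (k * s i ^ k) * (l * s i ^ l) := Nat.mul_le_mul (hk i) (hl i)
    _ = (k * l) * s i ^ (k + l) := by rw [pow_add]; ring
    _ ≤ (k * l + (k + l)) * s i ^ (k * l + (k + l)) :=
        Nat.mul_le_mul (Nat.le_add_right _ _) (Nat.pow_le_pow_right (hs i) (Nat.le_add_left _ _))

theorem SB.pow (hs : ∀ i, 1 ≤ s i) (hf : SB s f) (n : ℕ) : SB s fun i => f i ^ n := by
  induction n with
  | zero => simpa using SB.const hs 1
  | succ n ih => simpa only [pow_succ] using ih.mul hs hf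

/-- A polynomial bound in the size of a small object. -/
theorem SB.of_pbd {π : Type*} [Enc π] (hs : ∀ i, 1 ≤ s i) {b : π → ℕ} (hb : PBd b) {x : ι → π}
    (hx : SB s fun i => esize (x i)) : SB s fun i => b (x i) := by
  obtain ⟨c, hc⟩ := hb
  exact ((hx.add hs (SB.const hs 2)).pow hs c).mono fun i => hc (x i)

variable {A : Set Word} {π β γ : Type*} [Enc π] [Enc β] [Enc γ]

/-- A function in polynomial time maps small objects to small objects. -/
theorem SB.of_pt (hs : ∀ i, 1 ≤ s i) {F : π → β} (hF : PT A F) {x : ι → π}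
    (hx : SB s fun i => esize (x i)) : SB s fun i => esize (F (x i)) :=
  SB.of_pbd hs hF.pbd hx

theorem SB.pair (hs : ∀ i, 1 ≤ s i) {x : ι → β} {y : ι → γ} (hx : SB s fun i => esize (x i))
    (hy : SB s fun i => esize (y i)) : SB s fun i => esize (x i, y i) :=
  ((((SB.const hs 2).mul hs hx).add hs hy).add hs (SB.const hs 1)).mono fun i =>
    (esize_pair _ _).le

theorem SB.list (hs : ∀ i, 1 ≤ s i) {l : ι → List β} {b : ι → ℕ}
    (hl : SB s fun i => (l i).length) (hb : SB s b) (h : ∀ i, ∀ x ∈ l i, esize x ≤ b i) :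
    SB s fun i => esize (l i) :=
  (hl.mul hs (((SB.const hs 2).mul hs hb).add hs (SB.const hs 1))).mono fun i =>
    esize_list_le (h i)

theorem SB.mapRange (hs : ∀ i, 1 ≤ s i) {n : ι → ℕ} {w : ι → ℕ → β} {b : ι → ℕ} (hn : SB s n)
    (hb : SB s b) (h : ∀ i, ∀ j < n i, esize (w i j) ≤ b i) :
    SB s fun i => esize ((List.range (n i)).map (w i)) :=
  SB.list hs (hn.mono fun _ => by simp) hb fun i x hx => by
    obtain ⟨j, hj, rfl⟩ := List.mem_map.1 hx
    exact h i j (List.mem_range.1 hj)

theorem SB.ofFn (hs : ∀ i, 1 ≤ s i) {n : ℕ} {w : ι → Fin n → β} {b : ι → ℕ}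
    (hb : SB s b) (h : ∀ i j, esize (w i j) ≤ b i) :
    SB s fun i => esize (List.ofFn (w i)) :=
  SB.list hs ((SB.const hs n).mono fun _ => by simp) hb fun i x hx => by
    obtain ⟨j, rfl⟩ := (List.mem_ofFn' _ _).1 hx
    exact h i j

theorem SB.nat {n : ι → ℕ} (h : SB s n) : SB s fun i => esize (n i) :=
  h.mono fun i => esize_nat_le_self _

theorem SB.esum (hs : ∀ i, 1 ≤ s i) {l : List (ι → ℕ)} (h : ∀ w ∈ l, SB s w) :
    SB s fun i => (l.map fun w => w i).sum := by
  induction l with
  | nil => simpa using SB.const hs 0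
  | cons w l ih =>
    simp only [List.map_cons, List.sum_cons]
    exact (h w List.mem_cons_self).add hs (ih fun v hv => h v (List.mem_cons_of_mem _ hv))

end SB

/-! ### Maxima over a range -/

/-- The maximum of `f 0, …, f (n - 1)`. -/
def mx (f : ℕ → ℕ) (n : ℕ) : ℕ := ((List.range n).map f).foldl max 0

theorem foldl_max_eq (l : List ℕ) : ∀ a, l.foldl max a = max a (l.foldl max 0) := by
  induction l with
  | nil => intro a; simp
  | cons x l ih =>
    intro a
    simp only [List.foldl_cons]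
    rw [ih (max a x), ih (max 0 x)]
    omega

theorem le_foldl_max {l : List ℕ} {x : ℕ} (h : x ∈ l) : x ≤ l.foldl max 0 := by
  induction l with
  | nil => simp at h
  | cons y l ih =>
    rw [List.foldl_cons, foldl_max_eq]
    rcases List.mem_cons.1 h with rfl | h
    · omega
    · have := ih h
      omega

theorem foldl_max_le {l : List ℕ} {b : ℕ} (h : ∀ x ∈ l, x ≤ b) : l.foldl max 0 ≤ b := by
  induction l with
  | nil => simp
  | cons y l ih =>
    rw [List.foldl_cons, foldl_max_eq]
    have h1 := h y List.mem_cons_self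
    have h2 := ih fun x hx => h x (List.mem_cons_of_mem _ hx)
    omega

theorem le_mx {f : ℕ → ℕ} {n i : ℕ} (h : i < n) : f i ≤ mx f n :=
  le_foldl_max (List.mem_map.2 ⟨i, List.mem_range.2 h, rfl⟩)

theorem mx_le {f : ℕ → ℕ} {n b : ℕ} (h : ∀ i < n, f i ≤ b) : mx f n ≤ b :=
  foldl_max_le fun x hx => by
    obtain ⟨i, hi, rfl⟩ := List.mem_map.1 hx
    exact h i (List.mem_range.1 hi)

theorem PT.foldlMax {A : Set Word} {α : Type*} [Enc α] {l : α → List ℕ} (hl : PT A l) :
    PT A (fun a => (l a).foldl max 0) := by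
  have hall : ∀ (l : List ℕ), l.foldl max 0 ∈ l ∨ l.foldl max 0 = 0 := by
    intro l
    induction l with
    | nil => right; rfl
    | cons y l ih =>
      rw [List.foldl_cons, foldl_max_eq]
      rcases ih with h | h
      · rcases le_total (max 0 y) (l.foldl max 0) with h1 | h1
        · left; rw [max_eq_right h1]; exact List.mem_cons_of_mem _ h
        · left; rw [max_eq_left h1, Nat.max_eq_right (Nat.zero_le _)]; exact List.mem_cons_self
      · left; rw [h]; simp
  refine (PT.optGetD (PT.find? (f := fun a x => (l a).all fun y => decide (y ≤ x)) hl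
    (PT.all (f := fun (p : α × ℕ) y => decide (y ≤ p.2)) (hl.comp PT.fst')
      (PT.le PT.snd' PT.fst'.snd))) (PT.const 0)).congr fun a => ?_
  rcases hf : (l a).find? (fun x => (l a).all fun y => decide (y ≤ x)) with _ | x
  · rcases hall (l a) with h | h
    · rw [List.find?_eq_none] at hf
      refine absurd ?_ (hf _ h)
      rw [List.all_eq_true]
      intro y hy
      simpa using le_foldl_max hy
    · rw [h]; rfl
  · have h1 := List.find?_some hf
    have h2 := List.mem_of_find?_eq_some hf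
    rw [List.all_eq_true] at h1
    simp only [decide_eq_true_eq] at h1
    exact le_antisymm (le_foldl_max h2) (foldl_max_le h1)

/-- The maximum over a range in polynomial time. -/
theorem PT.mx {A : Set Word} {α : Type*} [Enc α] {f : α → ℕ → ℕ} {n : α → ℕ}
    (hf : PT A (fun p : α × ℕ => f p.1 p.2)) (hn : PT A n) (hb : PBd n) :
    PT A (fun a => mx (f a) (n a)) :=
  PT.foldlMax (PT.map (PT.range hn hb) hf)

/-! ### Instances of `EndOfLine` -/

open H838 (QLog lg)

theorem qlog_iff {f : EndOfLine → ℕ} : QLog f ↔ SB lg f := Iff.rfl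

theorem one_le_lg (I : EndOfLine) : 1 ≤ lg I := H838.one_le_lg I

/-- The maximum over the sites of a bounded quantity. -/
theorem qlog_mx {f : EndOfLine → ℕ → ℕ} {n : EndOfLine → ℕ} {b : EndOfLine → ℕ} (hb : QLog b)
    (h : ∀ I, ∀ i < n I, f I i ≤ b I) : QLog fun I => mx (f I) (n I) :=
  hb.mono fun I => mx_le (h I)

/-- Parameters of polylogarithmic size: the values of functions in polynomial time are of
polylogarithmic size. -/
theorem qlog_pt {A : Set Word} {π β : Type*} [Enc π] [Enc β] {F : π → β} (hF : PT A F)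
    {x : EndOfLine → π} (hx : QLog fun I => esize (x I)) : QLog fun I => esize (F (x I)) :=
  SB.of_pt one_le_lg hF hx

end Vale.Agent.P330.H659
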