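import Vale.Agent.P330.H155.RSJ
import Vale.Agent.P330.H247.Num
import Vale.Agent.P330.H985.Pub
import Vale.Agent.P330.W.H659.Size

/-!
# The small parameters of an instance

`PJ`: instances, with the code of the small parameters `kI`, `kapJ`, `3 ^ leJ` (unary), `n` and the
output shifts (binary). The code is of polylogarithmic length (`qlog_PJ`), and the parameters of the
content program are computable in polynomial time from it.
-/

set_option autoImplicit false

namespace Vale.Agent.P330.H659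

open Vale.Agent.Lib.PolyTime
open Vale.Agent.P330.H933 (eF Fl LPar NPar RPar)
open Vale.Agent.P330.H743 (kI)
open Vale.Agent.P330.H838 (QLog lg)
open Vale.Agent.P330.H840 (lqJ dJ leJ kapJ mpJ mpJ_good kapJ_lt)
open Vale.Agent.P330.H155 (rJ nJ)

/-- An instance; the code is the code of the small parameters. -/
structure PJ where
  /-- the instance -/
  I : EndOfLine

/-- The small parameters. -/
noncomputable def PJ.tup (p : PJ) : Un × Un × Un × ℕ × ℕ × ℕ :=
  (⟨(mpJ p.I).k⟩, ⟨kapJ p.I⟩, ⟨3 ^ leJ p.I⟩, (mpJ p.I).n, (mpJ p.I).off false,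
    (mpJ p.I).off true)

noncomputable instance : Enc PJ := ⟨fun p => enc p.tup⟩

namespace PJ

variable {A : Set Word}

theorem pt_tup : PT A PJ.tup := ⟨_, FP.id, fun _ => rfl⟩

theorem pt_k : PT A (fun p : PJ => (mpJ p.I).k) :=
  PT.unVal (f := fun p : PJ => Un.mk (mpJ p.I).k) pt_tup.fst

theorem pb_k : PBd (fun p : PJ => (mpJ p.I).k) :=
  PBd.unVal (A := ∅) (f := fun p : PJ => Un.mk (mpJ p.I).k) pt_tup.fst

theorem pt_kap : PT A (fun p : PJ => kapJ p.I) :=
  PT.unVal (f := fun p : PJ => Un.mk (kapJ p.I)) pt_tup.snd.fst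

theorem pb_kap : PBd (fun p : PJ => kapJ p.I) :=
  PBd.unVal (A := ∅) (f := fun p : PJ => Un.mk (kapJ p.I)) pt_tup.snd.fst

theorem npar : NPar A (fun p : PJ => kapJ p.I) := ⟨pt_kap, pb_kap⟩

theorem lpar : LPar A (fun p : PJ => leJ p.I) := by
  have h : LPar A (fun p : PJ => Nat.log 3 (Un.mk (3 ^ leJ p.I)).v) :=
    H985.LPar.log3 (f := fun p : PJ => Un.mk (3 ^ leJ p.I)) pt_tup.snd.snd.fst
  have e : (fun p : PJ => Nat.log 3 (Un.mk (3 ^ leJ p.I)).v) = fun p : PJ => leJ p.I :=
    funext fun p => Nat.log_pow (by norm_num) _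
  rw [e] at h
  exact h

theorem pt_n : PT A (fun p : PJ => (mpJ p.I).n) := (pt_tup (A := A)).snd.snd.snd.fst

theorem pt_off (z : Bool) : PT A (fun p : PJ => (mpJ p.I).off z) := by
  cases z
  · exact (pt_tup (A := A)).snd.snd.snd.snd.fst
  · exact (pt_tup (A := A)).snd.snd.snd.snd.snd

theorem pt_L : PT A (fun p : PJ => (mpJ p.I).L) := H874.PT.stN pt_k

theorem pb_L : PBd (fun p : PJ => (mpJ p.I).L) := H874.PBd_stN pb_k

theorem pt_dir : PT A (fun q : PJ × ℕ => (mpJ q.1.I).dir q.2) :=
  H874.PT.dirS (pt_k.comp PT.fst') (PBd.comp (b := fun p : PJ => (mpJ p.I).k) pb_k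
    (PT.fst' (A := A))) PT.snd'

theorem rpar : RPar A (fun p : PJ => (mpJ p.I).κ) (fun p : PJ => leJ p.I) (fun p : PJ => rJ p.I) :=
  RPar.rth lpar npar fun p => (kapJ_lt p.I).le

theorem pt_nJ : PT A (fun p : PJ => nJ p.I) := by
  unfold nJ H743.nB
  exact PT.add (PT.add pt_k (PT.mul (PT.const 2) pt_L)) (PT.const 6)

theorem pb_nJ : PBd (fun p : PJ => nJ p.I) := by
  unfold nJ H743.nB
  exact (pb_k.add ((PBd.const 2).mul pb_L)).add (PBd.const 6)

end PJ

/-- **The code of the small parameters is of polylogarithmic length.** -/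
theorem qlog_PJ : QLog fun I => esize (PJ.mk I) := by
  have h1 : ∀ I : EndOfLine, esize (PJ.mk I) = esize (PJ.mk I).tup := fun _ => rfl
  have hk : QLog fun I => (mpJ I).k := H247.qlog_kJ
  have hu : ∀ {f : EndOfLine → ℕ}, QLog f → QLog fun I => esize (Un.mk (f I)) := fun hf =>
    hf.mono fun I => (esize_un _).le
  have hn : QLog fun I => esize (mpJ I).n := hk.mono fun I => by
    refine esize_nat_le ?_
    have h2 := (mpJ_good I).hnk
    have h3 := (mpJ_good I).hn
    omega
  have ho : ∀ z, QLog fun I => esize ((mpJ I).off z) := fun z => hk.mono fun I =>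
    esize_nat_le ((mpJ_good I).off_lt z)
  simp only [h1]
  have hs := one_le_lg
  exact SB.pair hs (hu hk) (SB.pair hs (hu H247.qlog_kapJ) (SB.pair hs
    (hu H247.qlog_three_pow_leJ) (SB.pair hs hn (SB.pair hs (ho false) (ho true)))))

/-- The values of functions of the small parameters in polynomial time are small. -/
theorem qlog_ptJ {A : Set Word} {β : Type*} [Enc β] {F : EndOfLine → β}
    (hF : PT A (fun p : PJ => F p.I)) : QLog fun I => esize (F I) :=
  qlog_pt hF qlog_PJ

end Vale.Agent.P330.H659
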