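import Vale.Agent.P330.H985.Pub
import Vale.Agent.P330.W.H604.Site
import Vale.Agent.P330.W.H659.Size

/-!
# The public record of a site

`baseRec`: the part of the record that does not depend on the site; `siteRec`: the record of a site.
Both are computable in polynomial time, and the size of the record of a site is polylogarithmic.
-/

set_option autoImplicit false

namespace Vale.Agent.P330.H659

open Vale.Agent.Lib.PolyTime Vale.Agent.P330.H933 Vale.Agent.P330.H604 Vale.Agent.P330.H985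
open Vale.Agent.P330.H155 (Kit HProg)
open Vale.Agent.P330.H874 (insMap)

/-! ### Lists over a fixed finite index type -/

section OfFn

variable {A : Set Word} {α β : Type*} [Enc α] [Enc β]

theorem PT_ofFn {n : ℕ} {f : Fin n → α → β} (h : ∀ i, PT A (f i)) :
    PT A (fun a => List.ofFn fun i => f i a) := by
  induction n with
  | zero => exact (PT.const ([] : List β)).congr fun a => by simp
  | succ n ih =>
    refine (PT.cons (h 0) (ih fun i => h i.succ)).congr fun a => ?_
    rw [List.ofFn_succ]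

theorem flatMap_map_finRange {ng : ℕ} {γ : Type*} (f : ℕ → List γ) :
    (List.finRange ng).flatMap (fun g : Fin ng => f (g : ℕ)) = (List.range ng).flatMap f := by
  rw [← List.map_coe_finRange_eq_range, List.flatMap_map]

theorem ofFn_eq_range {ng : ℕ} {γ : Type*} (f : ℕ → γ) :
    (List.ofFn fun g : Fin ng => f g) = (List.range ng).map f := by
  rw [List.ofFn_eq_map, ← List.map_coe_finRange_eq_range, List.map_map]
  rfl

end OfFn

/-! ### Numbers of the elements of the group -/

section Gp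

variable {l : ℕ}

theorem coe_gE (g : SL3 l) : ((gE l g : Fin (cG l)) : ℕ) = gn l g := rfl

theorem gE_symm (v : Fin (cG l)) : (gE l).symm v = ge l v := rfl

theorem ofFn_gE {γ : Type*} (f : SL3 l → γ) :
    (List.ofFn fun g : Fin (cG l) => f ((gE l).symm g)) =
      (List.range (cG l)).map fun v => f (ge l v) := ofFn_eq_range fun v => f (ge l v)

theorem tabG_gE {D : ℕ} {γ : Type*} (f : SL3 l → Fin D → γ) :
    tabG (gE l) f = (List.range (cG l)).flatMap fun v => List.ofFn fun b => f (ge l v) b := by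
  unfold tabG
  have h : ∀ g : Fin (cG l), ((List.finRange D).map fun b => f ((gE l).symm g) b) =
      (fun v : ℕ => List.ofFn fun b => f (ge l v) b) g := by
    intro g
    exact (List.ofFn_eq_map (f := fun b => f (ge l g) b)).symm
  simp only [h]
  exact flatMap_map_finRange fun v => List.ofFn fun b => f (ge l v) b

end Gp

section PTG

variable {A : Set Word} {α γ : Type} [Enc α] [Enc γ] {lq : α → ℕ}

/-- Tables over the group. -/
theorem PT.ofFnG (h : GPar A lq) {f : ∀ a, SL3 (lq a) → γ}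
    (hf : PT A (fun p : α × ℕ => f p.1 (ge (lq p.1) p.2))) :
    PT A (fun a => List.ofFn fun g : Fin (cG (lq a)) => f a ((gE (lq a)).symm g)) :=
  (PT.map (f := fun a v => f a (ge (lq a) v)) (PT.range (PT_cG h) (PBd_cG h)) hf).congr
    fun a => (ofFn_gE (f a)).symm

/-- Tables over the group and the labels. -/
theorem PT.tabG (h : GPar A lq) {D : ℕ} {f : ∀ a, SL3 (lq a) → Fin D → γ}
    (hf : ∀ b, PT A (fun p : α × ℕ => f p.1 (ge (lq p.1) p.2) b)) :
    PT A (fun a => tabG (gE (lq a)) (f a)) :=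
  (PT.flatMap (f := fun a v => List.ofFn fun b => f a (ge (lq a) v) b)
    (PT.range (PT_cG h) (PBd_cG h)) (PT_ofFn hf)).congr fun a => (tabG_gE (f a)).symm

end PTG

/-! ### The records -/

section Rec

variable {J Γ : Type} [Group Γ] {D l nJ nG ng : ℕ}

/-- The part of the record that does not depend on the site. -/
noncomputable def baseRec (gE : Γ ≃ Fin ng) (eta : Fin D → Γ) (tg : Fin nG → Γ) (ep : Fl l)
    (n : ℕ) (P : Kit (Fl l) (Fin nJ) (Fin nG) Γ (Fin D)) (nE nP : ℕ) (Q : HProg (Fl l)) :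
    Pub where
  u := ⟨3 ^ l⟩
  gv := 0
  g1 := gE 1
  mv := []
  rb := List.ofFn fun b => List.ofFn fun g : Fin ng => (gE (gE.symm g * (eta b)⁻¹) : ℕ)
  rt := List.ofFn fun t => List.ofFn fun g : Fin ng => (gE (gE.symm g * tg t) : ℕ)
  ph := []
  pr := []
  ep := cod l ep
  n := ⟨n⟩
  kit := (List.range (P.KL - 1)).map fun k => knOf gE (P.ins k)
  iT := (List.range nE).map P.iT
  iM := (List.range nP).map P.iM
  iS := P.iS
  iB := tabG gE P.iB
  pg := Q.prog.map (insMap (cod l))
  eqs := Q.eqs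
  prods := Q.prods
  out0 := (List.range n).map (Q.out false)
  out1 := (List.range n).map (Q.out true)

/-- The record of the site `h`. -/
noncomputable def siteRec (r0 : Pub) (gE : Γ ≃ Fin ng) (nP nPub : ℕ) (phi : ℕ → J → Fl l)
    (row : ℕ → J × Γ → Fin D → Fl l) (h : J × Γ) : Pub :=
  { r0 with
    gv := gE h.2
    mv := List.ofFn fun g : Fin ng => (gE (gE.symm g * h.2) : ℕ)
    ph := (List.range nP).map fun p => cod l (phi p h.1)
    pr := (List.range nPub).map fun p => cS l (row p h) }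

/-! ### Sizes -/

theorem esize_pub (r : Pub) : esize r = 2 * esize r.u + 2 * esize r.gv + 2 * esize r.g1 +
    2 * esize r.mv + 2 * esize r.rb + 2 * esize r.rt + 2 * esize r.ph + 2 * esize r.pr +
    2 * esize r.ep + 2 * esize r.n + 2 * esize r.kit + 2 * esize r.iT + 2 * esize r.iM +
    2 * esize r.iS + 2 * esize r.iB + 2 * esize r.pg + 2 * esize r.eqs + 2 * esize r.prods +
    2 * esize r.out0 + esize r.out1 + 19 := by
  have h : esize r = esize r.tup := rfl
  rw [h]
  unfold Pub.tup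
  simp only [esize_pair]
  ring

theorem esize_siteRec_le (r0 : Pub) (gE : Γ ≃ Fin ng) (nP nPub : ℕ) (phi : ℕ → J → Fl l)
    (row : ℕ → J × Γ → Fin D → Fl l) (h : J × Γ) :
    esize (siteRec r0 gE nP nPub phi row h) ≤ esize r0 + 2 * (ng + ng * (2 * ng + 1) +
      nP * (2 * eF l + 1) + nPub * (2 * (3 * (D * eF l)) + 1)) := by
  have h1 : esize (gE h.2 : ℕ) ≤ ng := (esize_nat_le_self _).trans (gE h.2).2.le
  have h2 : esize (List.ofFn fun g : Fin ng => (gE (gE.symm g * h.2) : ℕ)) ≤
      ng * (2 * ng + 1) := by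
    refine (esize_list_le (B := ng) fun x hx => ?_).trans (by simp)
    obtain ⟨i, rfl⟩ := (List.mem_ofFn' _ _).1 hx
    exact (esize_nat_le_self _).trans (Fin.isLt _).le
  have h3 : esize ((List.range nP).map fun p => cod l (phi p h.1)) ≤ nP * (2 * eF l + 1) := by
    refine (esize_list_le (B := eF l) fun x hx => ?_).trans (by simp)
    obtain ⟨i, -, rfl⟩ := List.mem_map.1 hx
    exact esize_nat_le (cod_lt _)
  have h4 : esize ((List.range nPub).map fun p => cS l (row p h)) ≤
      nPub * (2 * (3 * (D * eF l)) + 1) := by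
    refine (esize_list_le (B := 3 * (D * eF l)) fun x hx => ?_).trans (by simp)
    obtain ⟨i, -, rfl⟩ := List.mem_map.1 hx
    refine (esize_list_le (B := 1) fun b _ => (esize_bool b).le).trans ?_
    rw [length_cS]
    omega
  rw [esize_pub, esize_pub r0]
  simp only [siteRec]
  omega

end Rec

section SBrec

variable {ι : Type*} {s : ι → ℕ} {J Γ : ι → Type} [∀ i, Group (Γ i)] {D : ℕ} {l ng : ι → ℕ}

/-- **The record of a site is small.** -/
theorem SB.siteRec (hs : ∀ i, 1 ≤ s i) {r0 : ι → Pub} {gE : ∀ i, Γ i ≃ Fin (ng i)}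
    {nP nPub : ι → ℕ} {phi : ∀ i, ℕ → J i → Fl (l i)}
    {row : ∀ i, ℕ → J i × Γ i → Fin D → Fl (l i)} {h : ∀ i, J i × Γ i}
    (h0 : SB s fun i => esize (r0 i)) (hng : SB s ng) (hP : SB s nP) (hPub : SB s nPub)
    (hl : SB s fun i => eF (l i)) :
    SB s fun i => esize (siteRec (r0 i) (gE i) (nP i) (nPub i) (phi i) (row i) (h i)) := by
  have c : ∀ n : ℕ, SB s fun _ => n := SB.const hs
  refine SB.mono ?_ fun i => esize_siteRec_le _ _ _ _ _ _ _
  refine h0.add hs ((c 2).mul hs (SB.add hs (SB.add hs (hng.add hs (hng.mul hs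
    (((c 2).mul hs hng).add hs (c 1)))) (hP.mul hs (((c 2).mul hs hl).add hs (c 1))))
    (hPub.mul hs (((c 2).mul hs ((c 3).mul hs ((c D).mul hs hl))).add hs (c 1)))))

end SBrec

/-! ### Polynomial time -/

section PTrec

variable {A : Set Word} {α : Type} [Enc α] {lq le : α → ℕ} {D nJ nG : ℕ}

/-- What is needed of the ingredients of `baseRec`. -/
structure BasePT (A : Set Word) (lq le : α → ℕ) (eta : ∀ a, Fin D → SL3 (lq a))
    (tg : ∀ a, Fin nG → SL3 (lq a)) (ep : ∀ a, Fl (le a)) (n : α → ℕ)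
    (P : ∀ a, Kit (Fl (le a)) (Fin nJ) (Fin nG) (SL3 (lq a)) (Fin D)) (nE nP : α → ℕ)
    (Q : ∀ a, HProg (Fl (le a))) : Prop where
  gpar : GPar A lq
  lpar : LPar A le
  heta : ∀ b, GT A lq (fun a => eta a b)
  htg : ∀ t, GT A lq (fun a => tg a t)
  hep : FT A le ep
  hn : PT A n
  hnb : PBd n
  kit : PT A (fun a => (List.range ((P a).KL - 1)).map fun k => knOf (gE (lq a)) ((P a).ins k))
  iT : PT A (fun a => (List.range (nE a)).map (P a).iT)
  iM : PT A (fun a => (List.range (nP a)).map (P a).iM)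
  iS : PT A (fun a => (P a).iS)
  iB : PT A (fun a => tabG (gE (lq a)) (P a).iB)
  pg : PT A (fun a => (Q a).prog.map (insMap (cod (le a))))
  eqs : PT A (fun a => (Q a).eqs)
  prods : PT A (fun a => (Q a).prods)
  out : ∀ z, PT A (fun a => (List.range (n a)).map ((Q a).out z))

variable {eta : ∀ a, Fin D → SL3 (lq a)} {tg : ∀ a, Fin nG → SL3 (lq a)} {ep : ∀ a, Fl (le a)}
  {n : α → ℕ} {P : ∀ a, Kit (Fl (le a)) (Fin nJ) (Fin nG) (SL3 (lq a)) (Fin D)} {nE nP : α → ℕ}
  {Q : ∀ a, HProg (Fl (le a))}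

/-- **The site-independent part of the record in polynomial time.** -/
theorem PT.baseRec (h : BasePT A lq le eta tg ep n P nE nP Q) :
    PT A (fun a => baseRec (gE (lq a)) (eta a) (tg a) (ep a) (n a) (P a) (nE a) (nP a) (Q a)) := by
  refine Pub.pt_mk ?_
  unfold Pub.tup H659.baseRec
  simp only
  have hu : PT A (fun a => Un.mk (3 ^ le a)) :=
    PT.mkUn (PT.pow (PT.const 3) h.lpar.pt (h.lpar.bd.mono fun a =>
      (Nat.lt_pow_self (by norm_num)).le)) h.lpar.bd
  have hrow : ∀ g : ∀ a, SL3 (lq a), GT A lq g → PT A (fun a => List.ofFn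
      fun v : Fin (cG (lq a)) => ((gE (lq a)) ((gE (lq a)).symm v * g a) : ℕ)) := fun g hg =>
    PT.ofFnG (f := fun a x => gn (lq a) (x * g a)) h.gpar
      (GT.mul (l := fun p : α × ℕ => lq p.1) (h.gpar.comp PT.fst')
        (GT.ofNum (h.gpar.comp PT.fst') PT.snd') (hg.comp PT.fst'))
  refine hu.pair ((PT.const 0).pair (PT.pair ?_ ((PT.const []).pair (PT.pair ?_ (PT.pair ?_
    ((PT.const []).pair ((PT.const []).pair (PT.pair h.hep (PT.pair (PT.mkUn h.hn h.hnb)
    (h.kit.pair (h.iT.pair (h.iM.pair (h.iS.pair (h.iB.pair (h.pg.pair (h.eqs.pair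
    (h.prods.pair ((h.out false).pair (h.out true)))))))))))))))))))
  · exact GT.one h.gpar
  · exact PT_ofFn fun b => hrow _ (GT.inv h.gpar (h.heta b))
  · exact PT_ofFn fun t => hrow _ (h.htg t)

variable {J : α → Type} [∀ a, AddCommGroup (J a)] [∀ a, DistribMulAction (SL3 (lq a)) (J a)]
  (N : JNum A lq J)

/-- The record with the changed fields. -/
theorem PT.withSite {β : Type} [Enc β] {r0 : β → Pub} {gv : β → ℕ} {mv ph : β → List ℕ}
    {pr : β → List (List Bool)} (h0 : PT A r0) (h1 : PT A gv) (h2 : PT A mv) (h3 : PT A ph)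
    (h4 : PT A pr) :
    PT A (fun b => ({ r0 b with gv := gv b, mv := mv b, ph := ph b, pr := pr b } : Pub)) := by
  refine Pub.pt_mk ?_
  unfold Pub.tup
  simp only
  exact (Pub.pt_u h0).pair (h1.pair ((Pub.pt_g1 h0).pair (h2.pair ((Pub.pt_rb h0).pair
    ((Pub.pt_rt h0).pair (h3.pair (h4.pair (Pub.pt_tl h0))))))))

/-- **The record of the site number `i` in polynomial time.** `r0` is the record without the site. -/
theorem PT.siteRec (hq : GPar A lq) (hle : LPar A le) {r0 : α → Pub} (h0 : PT A r0)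
    {nP nPub : α → ℕ} (hP : PT A nP) (hPb : PBd nP) (hPub : PT A nPub) (hPubb : PBd nPub)
    {phi : ∀ a, ℕ → J a → Fl (le a)}
    (hphi : PT A (fun q : α × ℕ × ℕ => cod (le q.1) (phi q.1 q.2.1 (N.sv q.1 q.2.2).1)))
    {row : ∀ a, ℕ → J a × SL3 (lq a) → Fin D → Fl (le a)}
    (hrow : ∀ b, PT A (fun q : α × ℕ × ℕ =>
      cod (le q.1) (row q.1 q.2.1 (N.sv q.1 q.2.2) b))) :
    PT A (fun q : α × ℕ =>
      siteRec (r0 q.1) (gE (lq q.1)) (nP q.1) (nPub q.1) (phi q.1) (row q.1) (N.sv q.1 q.2)) := by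
  have hg : PT A (fun q : α × ℕ => gn (lq q.1) (N.sv q.1 q.2).2) :=
    (JNum.ST.ofNum (N := N) (u := fun q : α × ℕ => q.1) hq PT.fst' PT.snd').snd PT.fst'
  refine PT.withSite (h0.comp PT.fst') hg ?_ ?_ ?_
  · refine PT.ofFnG (lq := fun q : α × ℕ => lq q.1)
      (f := fun q x => gn (lq q.1) (x * (N.sv q.1 q.2).2)) (hq.comp PT.fst') ?_
    refine GT.mul (l := fun q : (α × ℕ) × ℕ => lq q.1.1) (hq.comp PT.fst'.fst) ?_ ?_
    · exact GT.ofNum (hq.comp PT.fst'.fst) PT.snd'
    · exact (JNum.ST.ofNum (N := N) (u := fun q : (α × ℕ) × ℕ => q.1.1) hq PT.fst'.fst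
        PT.fst'.snd).snd PT.fst'.fst
  · refine PT.map (l := fun q : α × ℕ => List.range (nP q.1))
      (PT.range (hP.comp PT.fst') (hPb.comp (A := A) PT.fst')) ?_
    exact hphi.comp (f := fun q : (α × ℕ) × ℕ => (q.1.1, q.2, q.1.2))
      (PT.fst'.fst.pair (PT.snd'.pair PT.fst'.snd))
  · refine PT.map (l := fun q : α × ℕ => List.range (nPub q.1))
      (PT.range (hPub.comp PT.fst') (hPubb.comp (A := A) PT.fst')) ?_
    refine PT.cS (l := fun q : (α × ℕ) × ℕ => le q.1.1) (hle.comp PT.fst'.fst) fun b => ?_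
    exact (hrow b).comp (f := fun q : (α × ℕ) × ℕ => (q.1.1, q.2, q.1.2))
      (PT.fst'.fst.pair (PT.snd'.pair PT.fst'.snd))

end PTrec

end Vale.Agent.P330.H659
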