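import Vale.Agent.P330.H985.LinkEq
import Vale.Agent.P330.W.H659.PubOf

/-!
# The record of a site describes the site

`rep_siteRec`: the record `siteRec` over `baseRec` satisfies `Rep`.
-/

set_option autoImplicit false

namespace Vale.Agent.P330.H659

open Function
open Vale.Agent.Lib.PolyTime Vale.Agent.P330.H933 Vale.Agent.P330.H985
open Vale.Agent.P330.H155 (Cd Gen KIns Kit HProg RS)
open Vale.Agent.P330.H16 (Ins)

theorem getD_range_map {β : Type*} (n i : ℕ) (f : ℕ → β) (d : β) (hi : i < n) :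
    ((List.range n).map f).getD i d = f i := by
  rw [List.getD_eq_getElem _ _ (by simpa using hi)]
  simp

section

variable {J Γ : Type} [AddCommGroup J] [Group Γ] [DistribMulAction Γ J]
  {D l nJ nG n ng : ℕ}

/-- **The record describes the site.** -/
theorem rep_siteRec (gE : Γ ≃ Fin ng) (R : RS J Γ (Fin D) (Fl l) (Fin nJ) (Fin nG) n)
    (ep : Fl l) (nE nP nPub : ℕ) (h : J × Γ) (hq : R.q = ng * D)
    (hen : ∀ (v : Γ) (b : Fin D), (R.en.symm (v, b) : ℕ) = gE v * D + b) (hKL : 0 < R.P.KL)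
    (ht2 : ∀ k < R.P.KL - 1, ∀ p i tab, R.P.ins k = .t2 p i tab → p < nP)
    (htr : ∀ j i, Ins.tr j i ∈ R.Q.prog → j < nE) (hmx : ∀ j i, Ins.mx j i ∈ R.Q.prog → j < nP)
    (hpub : ∀ p, Ins.pub p ∈ R.Q.prog → p < nPub) :
    Rep gE R h (siteRec (baseRec gE R.S.eta R.g.gG ep n R.P nE nP R.Q) gE nP nPub R.g.phi
      (fun p => R.S.E (R.g.pubc p)) h) where
  l_eq := by
    show Nat.log 3 (3 ^ l) = l
    exact Nat.log_pow (by norm_num) l
  n_eq := rfl
  q_eq := hq
  en_eq := hen
  gv := rfl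
  g1 := rfl
  mv := rfl
  rb := rfl
  rt := rfl
  KL_pos := hKL
  kit := rfl
  t2_ok k hk p i tab he := by
    have h1 : ((List.range nP).map fun p => cod l (R.g.phi p h.1)).getD p 0 =
        cod l (R.g.phi p h.1) := getD_range_map _ _ _ _ (ht2 k hk p i tab he)
    exact (congrArg (nm l) h1).trans (nm_cod _)
  pg := rfl
  tr_ok j i hi := getD_range_map _ _ _ _ (htr j i hi)
  mx_ok j i hi := getD_range_map _ _ _ _ (hmx j i hi)
  pub_ok p hp := getD_range_map _ _ (fun p => cS l (R.S.E (R.g.pubc p) h)) _ (hpub p hp)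
  iS := rfl
  iB v b := getD_tabG gE R.P.iB v b 0
  eqs := rfl
  prods := rfl
  out0 i hi := getD_range_map _ _ _ _ hi
  out1 i hi := getD_range_map _ _ _ _ hi

end

end Vale.Agent.P330.H659
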