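import Vale.Agent.P330.H155.StJ
import Vale.Agent.P330.W.H659.RepOf
import Vale.Agent.P330.H247.Num
import Vale.Agent.P330.W.H624.KitPTI

/-!
# The public records of the family of register systems

`recJ T I s`: the public record of the site `s` of the register system of the instance `I`;
`rep_recJ`: it describes the site; `pubT`: the records as a function of the numbers of the sites, in
polynomial time (`pt_pubT`).
-/

set_option autoImplicit false

namespace Vale.Agent.P330.H659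

open Vale.Agent.Lib.PolyTime Vale.Agent.P330.H933 Vale.Agent.P330.H604 Vale.Agent.P330.H985
open Vale.Agent.P330.H155
open Vale.Agent.P330.H675 (JJ JPar jn jv jco jnum)
open Vale.Agent.P330.H840 (oc tg12 A0 lqJ dJ leJ kapJ mpJ degJ ohypJ)
open Vale.Agent.P330.H16 (Ins Ct bx)
open Vale.Agent.P330.H874 (insMap)
open Vale.Agent.P330.H247 (LJ nPubJ)

/-! ### The kit -/

/-- The additive functions of the kit are among the first `nP`. -/
theorem kit_t2_lt {F iJ iG Γ B : Type} [Zero F] [One F] (P : W.H624.KP F iJ iG Γ B) {k p i : ℕ}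
    {tab : Γ → B → ℕ} (h : P.kit.ins k = .t2 p i tab) : p < P.nP := by
  have h0 : P.insD (k % P.M) (P.ds (k / P.M)) = .t2 p i tab := h
  have key : ∀ (m : ℕ) (D : W.H624.Dsc), P.insD m D = .t2 p i tab →
      ∃ n, D = W.H624.Dsc.t2 p n := by
    intro m D hD
    cases D with
    | t2 p' n =>
      simp only [W.H624.KP.insD, KIns.t2.injEq] at hD
      exact ⟨n, by rw [hD.1]⟩
    | ch t j n s =>
      simp only [W.H624.KP.insD, W.H624.KP.insL] at hD
      split_ifs at hD
    | u0 c => simp [W.H624.KP.insD] at hD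
    | comb nr nc ny => simp [W.H624.KP.insD] at hD
    | rhsD p n => simp [W.H624.KP.insD] at hD
    | add n n' => simp [W.H624.KP.insD] at hD
  obtain ⟨n, hn⟩ := key _ _ h0
  have hch : ∀ a t n' s j, W.H624.KP.chD a t n' s j ≠ W.H624.Dsc.t2 p n := by
    intro a t n' s j
    unfold W.H624.KP.chD
    split_ifs <;> simp
  have hsol : ∀ a j, P.solD a j ≠ W.H624.Dsc.t2 p n := by
    intro a j
    unfold W.H624.KP.solD
    split_ifs
    · exact hch _ _ _ _ _
    · simp
  have hsum : ∀ a j, P.sumD a j ≠ W.H624.Dsc.t2 p n := by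
    intro a j
    unfold W.H624.KP.sumD
    split_ifs
    · exact hch _ _ _ _ _
    · simp
  generalize k / P.M = q at hn
  unfold W.H624.KP.ds at hn
  split_ifs at hn with h1 h2 h3 h4 h5 h6 h7 h8
  · exact absurd hn (hsol _ _)
  · exact absurd hn (hch _ _ _ _ _)
  · simp only at hn
    have hp : (q - (P.NS + P.Lw)) / (P.NS + 1) < P.nP := by
      rw [Nat.div_lt_iff_lt_mul (by omega)]
      unfold W.H624.KP.sT at h4
      omega
    split_ifs at hn with h9 h10
    · rw [W.H624.Dsc.t2.injEq] at hn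
      rw [← hn.1]
      exact hp
    · exact absurd hn (hsol _ _)
  · exact absurd hn (hch _ _ _ _ _)
  · exact absurd hn (hsum _ _)
  · exact absurd hn (hch _ _ _ _ _)

/-! ### The records -/

/-- The part of the record which does not depend on the site. -/
noncomputable def baseJ (T : TopJ) (I : EndOfLine) : Pub :=
  baseRec (gE (lqJ I)) (T.rs I).S.eta (T.rs I).g.gG (th (leJ I)) (nJ I) (T.rs I).P (kapJ I)
    (kapJ I) (T.rs I).Q

/-- **The record of a site.** -/
noncomputable def recJ (T : TopJ) (I : EndOfLine) (s : OmJ I) : Pub :=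
  siteRec (baseJ T I) (gE (lqJ I)) (kapJ I) (nPubJ I) (T.rs I).g.phi
    (fun p => (T.rs I).S.E ((T.rs I).g.pubc p)) s

/-- The numbers of the hard-wired contents of the programs are at most the number of switches. -/
def PubLt (T : TopJ) : Prop := ∀ I p, Ins.pub p ∈ (T.Pg I).prog → p < nPubJ I

/-- **The record describes the site.** -/
theorem rep_recJ {T : TopJ} (hT : PubLt T) (I : EndOfLine) (s : OmJ I) :
    Rep (gE (lqJ I)) (T.rs I) s (recJ T I s) :=
  rep_siteRec (gE (lqJ I)) (T.rs I) (th (leJ I)) (kapJ I) (kapJ I) (nPubJ I) s rfl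
    (fun v b => (H675.enG_symm _ _ v b).trans (by
      rw [Nat.add_comm, Nat.mul_comm]
      rfl))
    (T.kitOK I).KL_pos (fun k _ p i tab he => kit_t2_lt (kpJ I) he)
    (fun j i hi => (T.ok I).idx _ hi) (fun j i hi => (T.ok I).idx _ hi) (hT I)

/-! ### Polynomial time -/

/-- What is needed of the programs. -/
structure ProgPT (T : TopJ) : Prop where
  pg : PT ∅ (fun I => (T.Pg I).prog.map (insMap (cod (leJ I))))
  eqs : PT ∅ (fun I => (T.Pg I).eqs)
  prods : PT ∅ (fun I => (T.Pg I).prods)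
  out : ∀ z, PT ∅ (fun I => (List.range (nJ I)).map ((T.Pg I).out z))

/-- The tables of the kit in polynomial time. -/
theorem kptJ : W.H624.KPT ∅ (fun I => gE (lqJ I)) kpJ :=
  W.H624.kptI (A0.P false) (A0.P true) (A0.B false) (A0.B true) jparJ lparJ (FT.th lparJ)

theorem pt_baseJ {T : TopJ} (hP : ProgPT T) : PT ∅ (baseJ T) := by
  have hB : BasePT ∅ lqJ leJ (fun I => (T.rs I).S.eta) (fun I => (T.rs I).g.gG)
      (fun I => th (leJ I)) nJ (fun I => (T.rs I).P) kapJ kapJ (fun I => (T.rs I).Q) :=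
    ⟨gparJ, lparJ, GT_eta jparJ A0 fun I => th (leJ I), GT_tg12 gparJ, FT.th lparJ, pt_nJ,
      pbd_nJ, W.H624.PT_kit kptJ, W.H624.PT_iT kptJ pt_kapJ pbd_kapJ,
      W.H624.PT_iM kptJ pt_kapJ pbd_kapJ, W.H624.PT_iS kptJ, W.H624.PT_iB kptJ, hP.pg, hP.eqs, hP.prods, hP.out⟩
  exact PT.baseRec hB

/-- The coordinates of a point. -/
theorem pt_phiJ : PT ∅ (fun q : EndOfLine × ℕ × ℕ =>
    cod (leJ q.1) (bx (F := Fl (leJ q.1)) q.2.1
      (jco (lqJ q.1) (dJ q.1) (degJ q.1) (jNJ.sv q.1 q.2.2).1))) := by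
  have hx : jNJ.JT (fun q : EndOfLine × ℕ × ℕ => q.1) (fun q => (jNJ.sv q.1 q.2.2).1) :=
    (JNum.ST.ofNum (N := jNJ) (u := fun q : EndOfLine × ℕ × ℕ => q.1) gparJ PT.fst'
      PT.snd'.snd).fst PT.fst'
  have h1 : FT ∅ (fun q : EndOfLine × ℕ × ℕ => leJ q.1) (fun q =>
      if q.2.1 < kapJ q.1 ∧ (jn (lqJ q.1) (dJ q.1) (jNJ.sv q.1 q.2.2).1).testBit q.2.1 = true
      then (1 : Fl (leJ q.1)) else 0) := by
    refine FT.ite ?_ FT.one FT.zero
    refine PT.decide_and (PT.lt PT.snd'.fst (pt_kapJ.comp PT.fst')) ?_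
    exact (PT.testBit (f := fun q : EndOfLine × ℕ × ℕ =>
      jn (lqJ q.1) (dJ q.1) (jNJ.sv q.1 q.2.2).1) hx PT.snd'.fst).congr fun q => by simp
  refine h1.congr fun q => ?_
  unfold bx
  by_cases hb : q.2.1 < kapJ q.1
  · have hb' : q.2.1 < H675.kap (lqJ q.1) (dJ q.1) := hb
    rw [dif_pos hb', H675.jco_apply]
    by_cases ht : (jn (lqJ q.1) (dJ q.1) (jNJ.sv q.1 q.2.2).1).testBit q.2.1 = true
    · simp [hb, ht]
    · simp [ht]
  · have hb' : ¬ q.2.1 < H675.kap (lqJ q.1) (dJ q.1) := hb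
    rw [dif_neg hb', if_neg fun hh => hb hh.1]

/-- The records as a function of the numbers of the sites. -/
noncomputable def pubT (T : TopJ) (q : EndOfLine × ℕ) : Pub := recJ T q.1 (jNJ.sv q.1 q.2)

theorem pubT_eq (T : TopJ) (I : EndOfLine) (h : OmJ I) :
    pubT T (I, (numJ I h : ℕ)) = recJ T I h := by
  unfold pubT
  simp only
  rw [sv_numJ]

/-- The rows of the hard-wired contents. -/
theorem pt_rowJ (b : Fin (nLab A0)) : PT ∅ (fun q : EndOfLine × ℕ × ℕ =>
    cod (leJ q.1) ((oc A0 (th (lqJ q.1)) (dJ q.1) (th (leJ q.1))).E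
      (fun x => pubJ q.1 q.2.1 (jco (lqJ q.1) (dJ q.1) (degJ q.1) x)) (jNJ.sv q.1 q.2.2) b)) := by
  have h1 : CT jNJ leJ (fun q : EndOfLine × ℕ × ℕ => q.1) (fun q x =>
      pubJ q.1 q.2.1 (jco (lqJ q.1) (dJ q.1) (degJ q.1) x)) :=
    CT.comp (u := fun p : EndOfLine × ℕ => p.1) ct_pub
      (v := fun q : EndOfLine × ℕ × ℕ => (q.1, q.2.1)) (PT.fst'.pair PT.snd'.fst)
  have h2 : jNJ.ST (fun q : EndOfLine × ℕ × ℕ => q.1) (fun q => jNJ.sv q.1 q.2.2) :=
    JNum.ST.ofNum gparJ PT.fst' PT.snd'.snd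
  exact eptJ PT.fst' h1 h2 b

/-- **The records in polynomial time.** -/
theorem pt_pubT {T : TopJ} (hP : ProgPT T) : PT ∅ (pubT T) :=
  PT.siteRec (N := jNJ) gparJ lparJ (pt_baseJ hP) pt_kapJ pbd_kapJ
    (H247.pt_nPubJ (A := ∅) PT.id) (H247.pb_nPubJ (A := ∅) PT.id)
    (phi := fun I => (T.rs I).g.phi) pt_phiJ
    (row := fun I p => (T.rs I).S.E ((T.rs I).g.pubc p)) pt_rowJ

end Vale.Agent.P330.H659
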