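import Vale.Agent.P330.H743.TopPJ
import Vale.Agent.P330.W.H659.ParP
import Vale.Agent.P330.W.H659.RecJ

/-!
# The sizes of the content programs

The content programs of the instances are computable in polynomial time from the small parameters;
hence their codes are of polylogarithmic length.
-/

set_option autoImplicit false

namespace Vale.Agent.P330.H659

open Vale.Agent.Lib.PolyTime
open Vale.Agent.P330.H933 (eF Fl LPar NPar RPar FT cod sg)
open Vale.Agent.P330.H743 (topJ cpl_eq rth_sAll)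
open Vale.Agent.P330.H838 (QLog)
open Vale.Agent.P330.H840 (leJ mpJ)
open Vale.Agent.P330.H155 (rJ nJ pt_nJ pbd_nJ)
open Vale.Agent.P330.H874 (PPar insMap)

/-- **The programs in polynomial time.** -/
theorem progPT : ProgPT topJ where
  pg := H743.pt_progJ PT.id
  eqs := H743.pt_eqsJ PT.id
  prods := H743.pt_prodsJ PT.id
  out z := H743.pt_outLJ PT.id z pt_nJ pbd_nJ

namespace PJ

variable {A : Set Word}

/-- The parameters of the content program, from the small parameters. -/
theorem ppar : PPar A (fun p : PJ => leJ p.I) (fun p : PJ => (mpJ p.I).pp (rJ p.I)) where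
  pk := pt_k
  bk := pb_k
  pκ := pt_kap
  bκ := pb_kap
  pn := pt_n
  pL := pt_L
  bL := pb_L
  pdir := pt_dir
  psc := by
    have hκ : NPar A fun p : PJ => (mpJ p.I).κ := npar
    have h1 : NPar A fun q : PJ × ℕ × ℕ => min q.2.1 ((mpJ q.1.I).κ) :=
      ⟨PT.min PT.snd'.fst (hκ.pt.comp PT.fst'),
        (hκ.comp PT.fst').bd.mono fun _ => min_le_right _ _⟩
    have h2 : NPar A fun q : PJ × ℕ × ℕ => min q.2.2 ((mpJ q.1.I).κ) :=
      ⟨PT.min PT.snd'.snd (hκ.pt.comp PT.fst'),
        (hκ.comp PT.fst').bd.mono fun _ => min_le_right _ _⟩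
    have h3 := FT.sg (lpar.comp (PT.fst' (A := A) (α := PJ) (β := ℕ × ℕ))) h1 h2
    have h4 : PT A fun q : PJ × ℕ × ℕ =>
        decide (q.2.1 < (mpJ q.1.I).κ ∧ q.2.2 < (mpJ q.1.I).κ) :=
      (PT.and (PT.lt PT.snd'.fst (hκ.pt.comp PT.fst'))
        (PT.lt PT.snd'.snd (hκ.pt.comp PT.fst'))).congr fun q => by simp
    refine (PT.ite h4 h3 (PT.const 0)).congr fun q => ?_
    have h5 : ((mpJ q.1.I).pp (rJ q.1.I)).sc q.2.1 q.2.2 =
        if q.2.1 < (mpJ q.1.I).κ ∧ q.2.2 < (mpJ q.1.I).κ then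
          sg (leJ q.1.I) (min q.2.1 (mpJ q.1.I).κ) (min q.2.2 (mpJ q.1.I).κ) else 0 :=
      rth_sAll (H840.kapJ_lt q.1.I).le _ _
    beta_reduce
    rw [h5]
    split_ifs
    · rfl
    · exact H933.cod_zero.symm

/-- The instructions. -/
theorem pt_prog : PT A fun p : PJ => (topJ.Pg p.I).prog.map (insMap (cod (leJ p.I))) :=
  (ppar.ins (off := fun p : PJ => (mpJ p.I).off) pt_off).congr fun p => by
    rw [← cpl_eq]
    rfl

/-- The asserted equalities. -/
theorem pt_eqs : PT A fun p : PJ => (topJ.Pg p.I).eqs :=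
  (ppar.eqsR (off := fun p : PJ => (mpJ p.I).off) pt_off).congr fun p => by
    rw [← cpl_eq]
    rfl

/-- The asserted products. -/
theorem pt_prods : PT A fun p : PJ => (topJ.Pg p.I).prods :=
  (ppar.prodsR (off := fun p : PJ => (mpJ p.I).off) pt_off).congr fun p => by
    rw [← cpl_eq]
    rfl

/-- The list of the outputs. -/
theorem pt_out (d : Bool) : PT A fun p : PJ => (List.range (nJ p.I)).map ((topJ.Pg p.I).out d) := by
  have h : PT A fun q : PJ × ℕ => (topJ.Pg q.1.I).out d q.2 :=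
    ((ppar.comp (PT.fst' (A := A) (α := PJ) (β := ℕ))).outR'
      (off := fun q : PJ × ℕ => (mpJ q.1.I).off) (fun z => (pt_off z).comp PT.fst') (PT.const d)
      PT.snd').congr fun q => by
        rw [← cpl_eq]
        rfl
  exact PT.map (f := fun (p : PJ) i => (topJ.Pg p.I).out d i) (PT.range pt_nJ pb_nJ) h

end PJ

/-! ### Sizes -/

theorem qlog_pg : QLog fun I => esize ((topJ.Pg I).prog.map (insMap (cod (leJ I)))) :=
  qlog_ptJ (A := ∅) PJ.pt_prog

theorem qlog_eqs : QLog fun I => esize (topJ.Pg I).eqs := qlog_ptJ (A := ∅) PJ.pt_eqs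

theorem qlog_prods : QLog fun I => esize (topJ.Pg I).prods := qlog_ptJ (A := ∅) PJ.pt_prods

theorem qlog_out (z : Bool) :
    QLog fun I => esize ((List.range (nJ I)).map ((topJ.Pg I).out z)) :=
  qlog_ptJ (A := ∅) (PJ.pt_out z)

end Vale.Agent.P330.H659
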